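import Mathlib

/-! Rational functions with a limit greater than one: size and injectivity near infinity. -/

namespace Vale.Agent.P027.H192

open Polynomial Filter Topology

theorem shape (P Q : ℤ[X]) (hd : P.natDegree = Q.natDegree) (hQ : 0 < Q.leadingCoeff)
    (hPQ : Q.leadingCoeff < P.leadingCoeff)
    (hn : ∀ a b : ℤ, C a * P = C b * Q → a = 0) :
    ∃ (N : ℕ) (L U : ℚ), 1 < L ∧ U < L * L ∧
      (∀ x : ℚ, (N : ℚ) ≤ x → 0 < aeval x Q ∧ L * aeval x Q < aeval x P ∧
        aeval x P < U * aeval x Q) ∧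
      ∀ x y : ℚ, (N : ℚ) ≤ x → (N : ℚ) ≤ y → aeval x P * aeval y Q = aeval y P * aeval x Q →
        x = y := by
  have hQ0 : Q ≠ 0 := by
    rintro rfl
    simp at hQ
  have hP0 : P ≠ 0 := by
    rintro rfl
    simp at hPQ
    omega
  have hinj : Function.Injective (Int.castRingHom ℝ) := Int.cast_injective
  obtain ⟨p, hp⟩ : ∃ p : ℝ[X], p = P.map (Int.castRingHom ℝ) := ⟨_, rfl⟩
  obtain ⟨q, hq⟩ : ∃ q : ℝ[X], q = Q.map (Int.castRingHom ℝ) := ⟨_, rfl⟩
  have hpl : p.leadingCoeff = (P.leadingCoeff : ℝ) := by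
    rw [hp, leadingCoeff_map_of_injective hinj]; rfl
  have hql : q.leadingCoeff = (Q.leadingCoeff : ℝ) := by
    rw [hq, leadingCoeff_map_of_injective hinj]; rfl
  have hp0 : p ≠ 0 := by rw [hp]; exact (Polynomial.map_ne_zero_iff hinj).2 hP0
  have hq0 : q ≠ 0 := by rw [hq]; exact (Polynomial.map_ne_zero_iff hinj).2 hQ0
  have hdeg : p.degree = q.degree := by
    rw [hp, hq, degree_map_eq_of_injective hinj, degree_map_eq_of_injective hinj,
      degree_eq_natDegree hP0, degree_eq_natDegree hQ0, hd]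
  have hQr : (0 : ℝ) < Q.leadingCoeff := by exact_mod_cast hQ
  have hPQr : (Q.leadingCoeff : ℝ) < P.leadingCoeff := by exact_mod_cast hPQ
  obtain ⟨c, hc⟩ : ∃ c : ℝ, c = (P.leadingCoeff : ℝ) / Q.leadingCoeff := ⟨_, rfl⟩
  have hc1 : 1 < c := by rw [hc, lt_div_iff₀ hQr]; linarith
  have hlim : Tendsto (fun x => eval x p / eval x q) atTop (𝓝 c) := by
    have := Polynomial.div_tendsto_atTop_leadingCoeff_div_of_degree_eq p q hdeg
    rwa [hpl, hql, ← hc] at this
  -- the rational bounds
  have hs1 : 1 < Real.sqrt c := by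
    rw [show (1 : ℝ) = Real.sqrt 1 by simp]
    exact Real.sqrt_lt_sqrt (by norm_num) hc1
  have hsc : Real.sqrt c < c := by
    have h2 : Real.sqrt c * Real.sqrt c = c := Real.mul_self_sqrt (by linarith)
    nlinarith
  obtain ⟨L, hL1, hL2⟩ := exists_rat_btwn hsc
  have hL0 : (1 : ℝ) < L := hs1.trans hL1
  have hcL : c < (L : ℝ) * L := by
    have h2 : Real.sqrt c * Real.sqrt c = c := Real.mul_self_sqrt (by linarith)
    nlinarith
  obtain ⟨U, hU1, hU2⟩ := exists_rat_btwn hcL
  have e1 : ∀ᶠ x in atTop, (L : ℝ) < eval x p / eval x q := hlim.eventually (lt_mem_nhds hL2)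
  have e2 : ∀ᶠ x in atTop, eval x p / eval x q < (U : ℝ) := hlim.eventually (gt_mem_nhds hU1)
  -- positivity of q
  have e3 : ∀ᶠ x in atTop, 0 < eval x q := by
    rcases Nat.eq_zero_or_pos q.natDegree with h0 | h0
    · have h1 : q = C (q.leadingCoeff) := by
        rw [leadingCoeff, h0]
        exact eq_C_of_natDegree_eq_zero h0
      filter_upwards with x
      rw [h1, eval_C, hql]
      exact hQr
    · have h1 : Tendsto (fun x => eval x q) atTop atTop :=
        q.tendsto_atTop_of_leadingCoeff_nonneg (natDegree_pos_iff_degree_pos.1 h0)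
          (by rw [hql]; exact hQr.le)
      exact h1.eventually_gt_atTop 0
  -- the Wronskian
  obtain ⟨W, hW⟩ : ∃ W : ℝ[X], W = derivative p * q - p * derivative q := ⟨_, rfl⟩
  obtain ⟨x1, h1⟩ := eventually_atTop.1 (e1.and (e2.and e3))
  have hder : ∀ x, x1 ≤ x → HasDerivAt (fun x => eval x p / eval x q)
      (eval x W / (eval x q) ^ 2) x := by
    intro x hx
    have h2 := (p.hasDerivAt x).fun_div (q.hasDerivAt x) (h1 x hx).2.2.ne'
    rw [hW, eval_sub, eval_mul, eval_mul]
    exact h2
  have hW0 : W ≠ 0 := by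
    intro hW0
    have hconst : ∀ x, x1 ≤ x → eval x p / eval x q = eval x1 p / eval x1 q := by
      intro x hx
      rcases eq_or_lt_of_le hx with h2 | h2
      · rw [← h2]
      obtain ⟨ξ, hξ, hξ2⟩ := exists_hasDerivAt_eq_slope (fun x => eval x p / eval x q)
        (fun x => eval x W / (eval x q) ^ 2) h2
        (fun y hy => (hder y hy.1).continuousAt.continuousWithinAt)
        (fun y hy => hder y hy.1.le)
      rw [hW0] at hξ2
      simp only [eval_zero, zero_div] at hξ2
      have h3 : x - x1 ≠ 0 := by linarith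
      have h4 := hξ2.symm
      rw [div_eq_zero_iff] at h4
      rcases h4 with h4 | h4
      · linarith
      · exact absurd h4 h3
    -- the constant is c
    have h4 : Tendsto (fun x => eval x p / eval x q) atTop (𝓝 (eval x1 p / eval x1 q)) :=
      tendsto_const_nhds.congr' (by
        filter_upwards [eventually_ge_atTop x1] with x hx
        exact (hconst x hx).symm)
    have h5 := tendsto_nhds_unique h4 hlim
    have h6 : C (Q.leadingCoeff : ℝ) * p - C (P.leadingCoeff : ℝ) * q = 0 := by
      by_contra hne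
      have h7 : Set.Ici x1 ⊆ ((C (Q.leadingCoeff : ℝ) * p - C (P.leadingCoeff : ℝ) * q).roots.toFinset : Set ℝ) := by
        intro x hx
        simp only [Finset.mem_coe, Multiset.mem_toFinset]
        rw [mem_roots hne, IsRoot.def]
        simp only [eval_sub, eval_mul, eval_C]
        have h8 := hconst x hx
        rw [h5, hc] at h8
        have h9 := (h1 x hx).2.2
        rw [div_eq_div_iff h9.ne' hQr.ne'] at h8
        linarith
      exact (Set.Ici_infinite x1) (Set.Finite.subset (Finset.finite_toSet _) h7)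
    have h7 : C Q.leadingCoeff * P = C P.leadingCoeff * Q := by
      apply Polynomial.map_injective (Int.castRingHom ℝ) hinj
      simp only [Polynomial.map_mul, Polynomial.map_C, ← hp, ← hq]
      have := sub_eq_zero.1 h6
      simpa using this
    have := hn _ _ h7
    omega
  obtain ⟨x2, h2⟩ : ∃ x2 : ℝ, ∀ x, x2 < x → eval x W ≠ 0 := by
    obtain ⟨b, hb⟩ := (W.roots.toFinset.finite_toSet).bddAbove
    refine ⟨b, fun x hx h3 => ?_⟩
    have h4 : x ∈ (W.roots.toFinset : Set ℝ) := by
      simp only [Finset.mem_coe, Multiset.mem_toFinset]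
      rw [mem_roots hW0]
      exact h3
    exact absurd (hb h4) (not_le.2 hx)
  obtain ⟨N, hN⟩ := exists_nat_gt (max x1 x2)
  have hN1 : x1 < N := (le_max_left _ _).trans_lt hN
  have hN2 : x2 < N := (le_max_right _ _).trans_lt hN
  have cast : ∀ (x : ℚ) (R : ℤ[X]), ((aeval x R : ℚ) : ℝ) =
      eval (x : ℝ) (R.map (Int.castRingHom ℝ)) := by
    intro x R
    induction R using Polynomial.induction_on' with
    | add a b ha hb => simp only [map_add, Polynomial.map_add, eval_add, ← ha, ← hb]; push_cast; rfl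
    | monomial n a => simp
  refine ⟨N, L, U, by exact_mod_cast hL0, by exact_mod_cast hU2, ?_, ?_⟩
  · intro x hx
    have hx' : (N : ℝ) ≤ (x : ℝ) := by exact_mod_cast hx
    obtain ⟨h3, h4, h5⟩ := h1 (x : ℝ) (by linarith)
    rw [lt_div_iff₀ h5] at h3
    rw [div_lt_iff₀ h5] at h4
    rw [hp, hq, ← cast, ← cast] at h3 h4
    rw [hq, ← cast] at h5
    exact ⟨by exact_mod_cast h5, by exact_mod_cast h3, by exact_mod_cast h4⟩
  · have main : ∀ x y : ℝ, (N : ℝ) ≤ x → x < y → eval x p * eval y q ≠ eval y p * eval x q := by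
      intro x y hx hxy h
      have hqx := (h1 x (by linarith)).2.2
      have hqy := (h1 y (by linarith)).2.2
      have h3 : eval x p / eval x q = eval y p / eval y q := by
        rw [div_eq_div_iff hqx.ne' hqy.ne']
        exact h
      obtain ⟨ξ, hξ, hξ2⟩ := exists_hasDerivAt_eq_zero (f := fun x => eval x p / eval x q)
        (f' := fun x => eval x W / (eval x q) ^ 2) hxy
        (fun z hz => (hder z (by linarith [hz.1])).continuousAt.continuousWithinAt) h3
        (fun z hz => hder z (by linarith [hz.1]))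
      have h4 := (h1 ξ (by linarith [hξ.1])).2.2
      rw [div_eq_zero_iff] at hξ2
      rcases hξ2 with h5 | h5
      · exact h2 ξ (by linarith [hξ.1]) h5
      · exact absurd h5 (pow_ne_zero 2 h4.ne')
    intro x y hx hy h
    have hx' : (N : ℝ) ≤ (x : ℝ) := by exact_mod_cast hx
    have hy' : (N : ℝ) ≤ (y : ℝ) := by exact_mod_cast hy
    have h' : eval (x : ℝ) p * eval (y : ℝ) q = eval (y : ℝ) p * eval (x : ℝ) q := by
      rw [hp, hq, ← cast, ← cast, ← cast, ← cast]
      exact_mod_cast h
    rcases lt_trichotomy (x : ℝ) y with h3 | h3 | h3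
    · exact absurd h' (main _ _ hx' h3)
    · exact_mod_cast h3
    · exact absurd h'.symm (main _ _ hy' h3)

end Vale.Agent.P027.H192
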