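import Vale.Agent.P027.R3.H192.Form
import Vale.Agent.P027.R3.H192.Shape

/-! Certificates for natural numbers from hypergeometric values and from factorials. -/

namespace Vale.Agent.P027.H192

open Vale.Agent.P027 Vale.Agent.P027.T2 Polynomial

/-- the sets of rational numbers whose elements above `B` are the values of `t` above `B` -/
def Above (t : ℕ → ℚ) (B : ℚ) : Set (Set ℚ) :=
  {G | (∀ n : ℕ, B < t n → t n ∈ G) ∧ ∀ g ∈ G, B < g → ∃ n : ℕ, g = t n}

/-- positive hypergeometric sequences whose ratio is not constant and has a limit greater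
than one -/
def Hyper (t : ℕ → ℚ) : Prop := ∃ P Q : ℤ[X],
  P.natDegree = Q.natDegree ∧ 0 < Q.leadingCoeff ∧ Q.leadingCoeff < P.leadingCoeff ∧
  (∀ a b : ℤ, C a * P = C b * Q → a = 0) ∧ 0 < t 0 ∧
  (∀ n : ℕ, 0 < P.eval (n : ℤ) ∧ 0 < Q.eval (n : ℤ)) ∧
  ∀ n : ℕ, t (n + 1) * ((Q.eval (n : ℤ) : ℤ) : ℚ) = ((P.eval (n : ℤ) : ℤ) : ℚ) * t n

theorem fn_q (q : ℚ) : DioFn (fun _ => q) := by
  have h := (DioFn.int q.num).div (DioFn.num q.den)
  have e : (fun _ : ℕ → ℚ => (q.num : ℚ) / (q.den : ℚ)) = fun _ => q := by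
    funext v
    exact Rat.num_div_den q
  rwa [e] at h

theorem fn_poly (P : ℤ[X]) {f : (ℕ → ℚ) → ℚ} (hf : DioFn f) :
    DioFn (fun v => aeval (f v) P) := by
  induction P using Polynomial.induction_on' with
  | add a b ha hb => simpa using ha.add hb
  | monomial n a =>
    have h := (DioFn.int a).mul (hf.pow n)
    simpa [aeval_monomial] using h

theorem aeval_nat (R : ℤ[X]) (n : ℕ) : aeval (n : ℚ) R = ((R.eval (n : ℤ) : ℤ) : ℚ) := by
  induction R using Polynomial.induction_on' with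
  | add a b ha hb => simp only [map_add, eval_add, ha, hb]; push_cast; rfl
  | monomial m a => simp

theorem cert_hyper {t : ℕ → ℚ} (ht : Hyper t) (B : ℚ) : HasCert (Above t B) := by
  obtain ⟨P, Q, hd, hQ, hPQ, hn, ht0, hpos, hrec⟩ := ht
  obtain ⟨N, L, U, hL, hU, hLU, hinj⟩ := shape P Q hd hQ hPQ hn
  have hq : ∀ n : ℕ, (0 : ℚ) < ((Q.eval (n : ℤ) : ℤ) : ℚ) := fun n => by exact_mod_cast (hpos n).2
  have hp : ∀ n : ℕ, (0 : ℚ) < ((P.eval (n : ℤ) : ℤ) : ℚ) := fun n => by exact_mod_cast (hpos n).1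
  have htp : ∀ n, 0 < t n := by
    intro n
    induction n with
    | zero => exact ht0
    | succ n ih =>
      have h1 : 0 < t (n + 1) * ((Q.eval (n : ℤ) : ℤ) : ℚ) := by
        rw [hrec]; exact mul_pos (hp n) ih
      exact (mul_pos_iff_of_pos_right (hq n)).1 h1
  have hstep : ∀ n : ℕ, N ≤ n → L * t n < t (n + 1) ∧ t (n + 1) < U * t n := by
    intro n hn
    obtain ⟨-, h2, h3⟩ := hLU n (by exact_mod_cast hn)
    rw [aeval_nat, aeval_nat] at h2 h3
    have h4 := hrec n
    have h5 := hq n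
    have h6 := htp n
    constructor
    · have h7 : L * t n * ((Q.eval (n : ℤ) : ℤ) : ℚ) < t (n + 1) * ((Q.eval (n : ℤ) : ℤ) : ℚ) := by
        rw [h4]; nlinarith
      exact lt_of_mul_lt_mul_right h7 h5.le
    · have h7 : t (n + 1) * ((Q.eval (n : ℤ) : ℤ) : ℚ) < U * t n * ((Q.eval (n : ℤ) : ℤ) : ℚ) := by
        rw [h4]; nlinarith
      exact lt_of_mul_lt_mul_right h7 h5.le
  have hincr : ∀ n : ℕ, N ≤ n → t n < t (n + 1) := by
    intro n hn
    have h1 := (hstep n hn).1
    have h2 := htp n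
    nlinarith
  have hmono : ∀ (n d : ℕ), N ≤ n → t n ≤ t (n + d) := by
    intro n d hn
    induction d with
    | zero => simp
    | succ d ih => exact ih.trans (by rw [← add_assoc]; exact (hincr _ (by omega)).le)
  -- growth
  obtain ⟨B', hB'⟩ : ∃ B' : ℚ, B' = |B| + ∑ j ∈ Finset.range (N + 1), t j := ⟨_, rfl⟩
  have hBB : B ≤ B' := by
    have h1 := le_abs_self B
    have h2 : 0 ≤ ∑ j ∈ Finset.range (N + 1), t j := Finset.sum_nonneg (fun j _ => (htp j).le)
    linarith
  have htB : ∀ j ≤ N, t j ≤ B' := by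
    intro j hj
    have h1 : t j ≤ ∑ j ∈ Finset.range (N + 1), t j :=
      Finset.single_le_sum (f := t) (fun i _ => (htp i).le) (Finset.mem_range.2 (by omega))
    have h2 := abs_nonneg B
    linarith
  have hgrow : ∀ d : ℕ, L ^ d * t N ≤ t (N + d) := by
    intro d
    induction d with
    | zero => simp
    | succ d ih =>
      have h1 := (hstep (N + d) (by omega)).1
      have h2 : L * (L ^ d * t N) ≤ L * t (N + d) := mul_le_mul_of_nonneg_left ih (by linarith)
      calc L ^ (d + 1) * t N = L * (L ^ d * t N) := by ring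
        _ ≤ L * t (N + d) := h2
        _ ≤ t (N + d + 1) := h1.le
  obtain ⟨M, hM⟩ := pow_unbounded_of_one_lt (B' / t N) hL
  obtain ⟨N1, hN1⟩ : ∃ N1 : ℕ, N1 = N + M := ⟨_, rfl⟩
  have hlarge : ∀ m : ℕ, N1 ≤ m → B' < t m := by
    intro m hm
    obtain ⟨d, rfl⟩ : ∃ d, m = N1 + d := ⟨m - N1, by omega⟩
    have h1 : B' < L ^ M * t N := by rwa [div_lt_iff₀ (htp N)] at hM
    have h2 := hgrow M
    have h3 := hmono N1 d (by omega)
    rw [hN1] at h3 ⊢
    linarith
  refine ⟨2, fun v => B' < v 1 ∧ v 1 < v 2 ∧ v 2 < U * v 1 ∧ 0 ≤ v 0 ∧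
    v 2 * aeval (v 0 + (N1 : ℚ)) Q = v 1 * aeval (v 0 + (N1 : ℚ)) P, ?_, ?_, ?_⟩
  · have hx : DioFn (fun v : ℕ → ℚ => v 0 + (N1 : ℚ)) := (DioFn.var 0).add (DioFn.num N1)
    exact (dio_lt (fn_q B') (DioFn.var 1)).and ((dio_lt (DioFn.var 1) (DioFn.var 2)).and
      ((dio_lt (DioFn.var 2) ((fn_q U).mul (DioFn.var 1))).and ((dio_nonneg (DioFn.var 0)).and
      (Dio.eq ((DioFn.var 2).mul (fn_poly Q hx)) ((DioFn.var 1).mul (fn_poly P hx))))))
  · rintro G ⟨-, hG⟩ x u hu hC
    have h1 : B' < u 0 := hC.1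
    have h2 : u 0 < u 1 := hC.2.1
    have h3 : u 1 < U * u 0 := hC.2.2.1
    have h4 : 0 ≤ x := hC.2.2.2.1
    have h5 : u 1 * aeval (x + (N1 : ℚ)) Q = u 0 * aeval (x + (N1 : ℚ)) P := hC.2.2.2.2
    clear hC
    obtain ⟨m, hm⟩ := hG _ (hu 0 (by norm_num)) (hBB.trans_lt h1)
    obtain ⟨m', hm'⟩ := hG _ (hu 1 (by norm_num)) ((hBB.trans_lt h1).trans h2)
    rw [hm] at h1 h2 h3 h5
    rw [hm'] at h2 h3 h5
    have hmN : N ≤ m := by
      by_contra hc
      exact absurd (htB m (by omega)) (not_le.2 h1)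
    have hmN' : N ≤ m' := by
      by_contra hc
      exact absurd (htB m' (by omega)) (not_le.2 (h1.trans h2))
    have hlt : m < m' := by
      by_contra hc
      obtain ⟨d, hd⟩ : ∃ d, m = m' + d := ⟨m - m', by omega⟩
      have := hmono m' d hmN'
      rw [← hd] at this
      linarith
    have hm1 : m' = m + 1 := by
      by_contra hc
      obtain ⟨d, hd⟩ : ∃ d, m' = m + 2 + d := ⟨m' - (m + 2), by omega⟩
      have h6 := hmono (m + 2) d (by omega)
      rw [← hd] at h6
      have h7 := (hstep m hmN).1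
      have h8 := (hstep (m + 1) (by omega)).1
      have h9 := htp m
      have h10 : t (m + 1 + 1) = t (m + 2) := rfl
      rw [h10] at h8
      nlinarith
    rw [hm1] at h5
    have h6 := hrec m
    have h7 := htp m
    have h8 : x + (N1 : ℚ) = m := by
      refine hinj _ _ (by rw [hN1]; push_cast; have : (0 : ℚ) ≤ (M : ℚ) := by positivity
                          linarith) (by exact_mod_cast hmN) ?_
      rw [aeval_nat, aeval_nat]
      have h9 : t m * (aeval (x + (N1 : ℚ)) P * ((Q.eval (m : ℤ) : ℤ) : ℚ)) =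
          t m * (((P.eval (m : ℤ) : ℤ) : ℚ) * aeval (x + (N1 : ℚ)) Q) := by
        calc t m * (aeval (x + (N1 : ℚ)) P * ((Q.eval (m : ℤ) : ℤ) : ℚ))
            = (t m * aeval (x + (N1 : ℚ)) P) * ((Q.eval (m : ℤ) : ℤ) : ℚ) := by ring
          _ = (t (m + 1) * aeval (x + (N1 : ℚ)) Q) * ((Q.eval (m : ℤ) : ℤ) : ℚ) := by rw [h5]
          _ = (t (m + 1) * ((Q.eval (m : ℤ) : ℤ) : ℚ)) * aeval (x + (N1 : ℚ)) Q := by ring
          _ = (((P.eval (m : ℤ) : ℤ) : ℚ) * t m) * aeval (x + (N1 : ℚ)) Q := by rw [h6]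
          _ = _ := by ring
      exact mul_left_cancel₀ h7.ne' h9
    have h10 : (N1 : ℚ) ≤ m := by linarith
    have h11 : N1 ≤ m := by exact_mod_cast h10
    refine ⟨m - N1, ?_⟩
    rw [Nat.cast_sub h11]
    linarith
  · rintro G ⟨hG, -⟩ n
    refine ⟨fun i => t (n + N1 + i), fun i hi => hG _ (hBB.trans_lt (hlarge _ (by omega))),
      fun u' hu' => ?_⟩
    have e1 : cns (n : ℚ) u' 1 = t (n + N1) := hu' 0 (by norm_num)
    have e2 : cns (n : ℚ) u' 2 = t (n + N1 + 1) := hu' 1 (by norm_num)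
    have e0 : cns (n : ℚ) u' 0 = n := rfl
    change B' < cns (n : ℚ) u' 1 ∧ cns (n : ℚ) u' 1 < cns (n : ℚ) u' 2 ∧
      cns (n : ℚ) u' 2 < U * cns (n : ℚ) u' 1 ∧ 0 ≤ cns (n : ℚ) u' 0 ∧ _ * _ = _ * _
    rw [e0, e1, e2]
    have h1 := hstep (n + N1) (by omega)
    refine ⟨hlarge _ (by omega), hincr _ (by omega), h1.2, by positivity, ?_⟩
    have h2 : (n : ℚ) + (N1 : ℚ) = ((n + N1 : ℕ) : ℚ) := by push_cast; rfl
    rw [h2, aeval_nat, aeval_nat, hrec, mul_comm]

theorem even_mul_succ (a c : ℕ) : Even ((a + 2) * (a + 1) * c) := by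
  rcases Nat.even_or_odd a with h | h
  · exact ((h.add (by norm_num : Even 2)).mul_right _).mul_right _
  · exact ((h.add_one).mul_left _).mul_right _

theorem cert_factorial (B : ℚ) : HasCert (Above (fun n => (n.factorial : ℚ)) B) := by
  obtain ⟨K, hK⟩ := exists_nat_gt (max B 1)
  have hK1 : 1 < K := by
    have := (le_max_right B 1).trans_lt hK
    exact_mod_cast this
  have hKB : B < K := (le_max_left B 1).trans_lt hK
  refine ⟨3, fun v => (K : ℚ) ≤ v 1 ∧ v 1 < v 2 ∧ v 2 < v 3 ∧ 0 ≤ v 0 ∧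
    v 3 * v 1 = v 2 ^ 2 + v 2 * v 1 ∧ v 2 = (v 0 + ((K + 1 : ℕ) : ℚ)) * v 1, ?_, ?_, ?_⟩
  · exact (dio_le (DioFn.num K) (DioFn.var 1)).and ((dio_lt (DioFn.var 1) (DioFn.var 2)).and
      ((dio_lt (DioFn.var 2) (DioFn.var 3)).and ((dio_nonneg (DioFn.var 0)).and
      ((Dio.eq ((DioFn.var 3).mul (DioFn.var 1)) (((DioFn.var 2).pow 2).add
        ((DioFn.var 2).mul (DioFn.var 1)))).and
      (Dio.eq (DioFn.var 2) (((DioFn.var 0).add (DioFn.num (K + 1))).mul (DioFn.var 1)))))))
  · rintro G ⟨-, hG⟩ x u hu hC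
    have h1 : (K : ℚ) ≤ u 0 := hC.1
    have h2 : u 0 < u 1 := hC.2.1
    have h3 : u 1 < u 2 := hC.2.2.1
    have h4 : 0 ≤ x := hC.2.2.2.1
    have h5 : u 2 * u 0 = u 1 ^ 2 + u 1 * u 0 := hC.2.2.2.2.1
    have h6 : u 1 = (x + ((K + 1 : ℕ) : ℚ)) * u 0 := hC.2.2.2.2.2
    clear hC
    obtain ⟨m, hm⟩ := hG _ (hu 0 (by norm_num)) (hKB.trans_le h1)
    obtain ⟨a, ha⟩ := hG _ (hu 1 (by norm_num)) ((hKB.trans_le h1).trans h2)
    obtain ⟨b, hb⟩ := hG _ (hu 2 (by norm_num)) (((hKB.trans_le h1).trans h2).trans h3)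
    simp only at hm ha hb
    rw [hm] at h1 h2 h5 h6
    rw [ha] at h2 h3 h5 h6
    rw [hb] at h3 h5
    have g1 : K ≤ m.factorial := by exact_mod_cast h1
    have g2 : m.factorial < a.factorial := by exact_mod_cast h2
    have g3 : a.factorial < b.factorial := by exact_mod_cast h3
    have g5 : b.factorial * m.factorial = a.factorial ^ 2 + a.factorial * m.factorial := by
      exact_mod_cast h5
    have hma : m < a := by
      by_contra hc
      exact absurd (Nat.factorial_le (not_lt.1 hc)) (not_le.2 g2)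
    have hab : a < b := by
      by_contra hc
      exact absurd (Nat.factorial_le (not_lt.1 hc)) (not_le.2 g3)
    have hm1 : 1 < m := by
      by_contra hc
      have : m.factorial = 1 := by
        rcases Nat.le_one_iff_eq_zero_or_eq_one.1 (not_lt.1 hc) with h | h <;> simp [h]
      omega
    obtain ⟨A, hA⟩ := Nat.factorial_dvd_factorial hma.le
    obtain ⟨D, hD⟩ := Nat.factorial_dvd_factorial hab.le
    have hmp := m.factorial_pos
    have hap := a.factorial_pos
    have hDA : D = A + 1 := by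
      have h7 : a.factorial * m.factorial * D = a.factorial * m.factorial * (A + 1) := by
        calc a.factorial * m.factorial * D = (a.factorial * D) * m.factorial := by ring
          _ = b.factorial * m.factorial := by rw [← hD]
          _ = a.factorial ^ 2 + a.factorial * m.factorial := g5
          _ = a.factorial * (m.factorial * A) + a.factorial * m.factorial := by
            rw [← hA]; ring
          _ = _ := by ring
      exact Nat.eq_of_mul_eq_mul_left (Nat.mul_pos hap hmp) h7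
    -- two steps give an even quotient
    have hev : ∀ i j Z : ℕ, i + 2 ≤ j → j.factorial = i.factorial * Z → Even Z := by
      intro i j Z hij hZ
      obtain ⟨d, rfl⟩ : ∃ d, j = d + 2 := ⟨j - 2, by omega⟩
      obtain ⟨W, hW⟩ := Nat.factorial_dvd_factorial (show i ≤ d by omega)
      have h7 : Z = (d + 2) * (d + 1) * W := by
        have h8 : i.factorial * Z = i.factorial * ((d + 2) * (d + 1) * W) := by
          rw [← hZ, Nat.factorial_succ, Nat.factorial_succ, hW]; ring
        exact Nat.eq_of_mul_eq_mul_left i.factorial_pos h8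
      rw [h7]
      exact even_mul_succ d W
    have hfin : a = m + 1 := by
      by_contra hc
      have hA2 : Even A := hev m a A (by omega) hA
      have hb1 : b = a + 1 := by
        by_contra hc2
        have hD2 : Even D := hev a b D (by omega) hD
        rw [hDA] at hD2
        exact (Nat.not_even_iff_odd.2 hA2.add_one) hD2
      have hD1 : D = a + 1 := by
        rw [hb1, Nat.factorial_succ, mul_comm] at hD
        exact (Nat.eq_of_mul_eq_mul_left hap hD).symm
      have hAa : A = a := by omega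
      obtain ⟨d, rfl⟩ : ∃ d, a = d + 1 := ⟨a - 1, by omega⟩
      rw [Nat.factorial_succ, hAa, mul_comm] at hA
      have h8 := Nat.eq_of_mul_eq_mul_right (Nat.succ_pos d) hA
      have h9 := (Nat.factorial_inj' (Or.inr (by omega : 1 < m))).1 h8
      omega
    rw [hfin, Nat.factorial_succ] at h6
    have hmp' : ((m.factorial : ℕ) : ℚ) ≠ 0 := by exact_mod_cast hmp.ne'
    have h7 : ((m : ℚ) + 1) = x + ((K + 1 : ℕ) : ℚ) := by
      push_cast at h6 ⊢
      exact mul_right_cancel₀ hmp' h6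
    push_cast at h7
    have h8 : (K : ℚ) ≤ m := by linarith
    have h9 : K ≤ m := by exact_mod_cast h8
    refine ⟨m - K, ?_⟩
    rw [Nat.cast_sub h9]
    linarith
  · rintro G ⟨hG, -⟩ n
    have hbig : ∀ m : ℕ, K ≤ m → B < (m.factorial : ℚ) := by
      intro m hm
      have h1 : K ≤ m.factorial := hm.trans (Nat.self_le_factorial m)
      have h2 : (K : ℚ) ≤ (m.factorial : ℚ) := by exact_mod_cast h1
      linarith
    refine ⟨fun i => ((n + K + i).factorial : ℚ), fun i hi => hG _ (hbig _ (by omega)),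
      fun u' hu' => ?_⟩
    have e1 : cns (n : ℚ) u' 1 = ((n + K).factorial : ℚ) := hu' 0 (by norm_num)
    have e2 : cns (n : ℚ) u' 2 = ((n + K + 1).factorial : ℚ) := hu' 1 (by norm_num)
    have e3 : cns (n : ℚ) u' 3 = ((n + K + 2).factorial : ℚ) := hu' 2 (by norm_num)
    have e0 : cns (n : ℚ) u' 0 = n := rfl
    change (K : ℚ) ≤ cns (n : ℚ) u' 1 ∧ cns (n : ℚ) u' 1 < cns (n : ℚ) u' 2 ∧
      cns (n : ℚ) u' 2 < cns (n : ℚ) u' 3 ∧ 0 ≤ cns (n : ℚ) u' 0 ∧
      cns (n : ℚ) u' 3 * cns (n : ℚ) u' 1 = cns (n : ℚ) u' 2 ^ 2 +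
        cns (n : ℚ) u' 2 * cns (n : ℚ) u' 1 ∧
      cns (n : ℚ) u' 2 = (cns (n : ℚ) u' 0 + ((K + 1 : ℕ) : ℚ)) * cns (n : ℚ) u' 1
    rw [e0, e1, e2, e3]
    have f1 : (n + K + 1).factorial = (n + K + 1) * (n + K).factorial := Nat.factorial_succ _
    have f2 : (n + K + 2).factorial = (n + K + 2) * ((n + K + 1) * (n + K).factorial) := by
      rw [Nat.factorial_succ, f1]
    have hp := (n + K).factorial_pos
    refine ⟨?_, ?_, ?_, by positivity, ?_, ?_⟩
    · have : K ≤ (n + K).factorial := (by omega : K ≤ n + K).trans (Nat.self_le_factorial _)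
      exact_mod_cast this
    · rw [f1]
      have : (n + K).factorial < (n + K + 1) * (n + K).factorial := by nlinarith
      exact_mod_cast this
    · rw [f2, f1]
      have : (n + K + 1) * (n + K).factorial < (n + K + 2) * ((n + K + 1) * (n + K).factorial) := by
        have h1 : 0 < (n + K + 1) * (n + K).factorial := Nat.mul_pos (by omega) hp
        nlinarith
      exact_mod_cast this
    · rw [f2, f1]
      push_cast
      ring
    · rw [f1]
      push_cast
      ring

end Vale.Agent.P027.H192
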