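import Mathlib
import Vale.Agent.P027.R2.H124.Forms
import Vale.Agent.P027.H434.Main

/-! A set of rational numbers in which the natural numbers can be certified. -/

namespace Vale.Agent.P027.H192

open Vale.Agent.P027 Vale.Agent.P027.T2 MvPolynomial

/-- the renaming that reads the certificate number `j` -/
def rd (N k c j : ℕ) (i : ℕ) : ℕ := if i = 0 then j else N + (k + (j * c + (i - 1)))

/-- A family `𝒢` of sets of rational numbers has a certificate for natural numbers. -/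
def HasCert (𝒢 : Set (Set ℚ)) : Prop :=
  ∃ (c : ℕ) (Ct : (ℕ → ℚ) → Prop), Dio Ct ∧
    (∀ G ∈ 𝒢, ∀ (x : ℚ) (u : ℕ → ℚ), (∀ i < c, u i ∈ G) → Ct (cns x u) → ∃ n : ℕ, x = n) ∧
    (∀ G ∈ 𝒢, ∀ n : ℕ, ∃ u : ℕ → ℚ, (∀ i < c, u i ∈ G) ∧
      ∀ u' : ℕ → ℚ, (∀ i < c, u' i = u i) → Ct (cns n u'))

/-- `F` defines the set `S` of tuples of integers -/
def Defines {k m r : ℕ} (F : MvPolynomial (Fin k ⊕ Fin m ⊕ Fin r) ℤ) (S : Set (Fin k → ℤ))
    (G R : Set ℚ) : Prop :=
  ∀ x : Fin k → ℚ, (∃ a ∈ S, ∀ i, x i = (a i : ℚ)) ↔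
    ∃ (u : Fin m → ℚ) (y : Fin r → ℚ), (∀ i, u i ∈ G) ∧ (∀ j, y j ∈ R) ∧
      aeval (Sum.elim x (Sum.elim u y)) F = 0

theorem form_of_cert {𝒢 : Set (Set ℚ)} (h𝒢 : HasCert 𝒢) {k : ℕ} {S : Set (Fin k → ℤ)}
    (hS : REPred (fun a => a ∈ S)) :
    ∃ (m r : ℕ) (F : MvPolynomial (Fin k ⊕ Fin m ⊕ Fin r) ℤ), ∀ G ∈ 𝒢, ∀ R : Set ℚ,
      (∀ z : ℤ, (z : ℚ) ∈ R) → Defines F S G R := by
  obtain ⟨c, Ct, hD, sound, comp⟩ := h𝒢
  obtain ⟨n, P, hP⟩ := dprm_int hS
  obtain ⟨N, hN⟩ : ∃ N : ℕ, N = 2 * k + n := ⟨_, rfl⟩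
  -- the matrix
  let T1 : (ℕ → ℚ) → Prop := fun e =>
    (∀ j < N, Ct (fun i => e (rd N k c j i))) ∧
    (∀ i < k, e (N + i) = e (2 * i) - e (2 * i + 1)) ∧
    aeval (fun s : Fin k ⊕ Fin n => Sum.elim (fun (i : Fin k) (v : ℕ → ℚ) => v (N + i))
      (fun (j : Fin n) (v : ℕ → ℚ) => v (2 * k + j)) s e) P = 0
  have hT1 : Dio T1 := by
    refine (K2.Dio.forall_lt (fun j => hD.ren (rd N k c j)) N).and
      ((K2.Dio.forall_lt (fun i => Dio.eq (DioFn.var (N + i))
        ((DioFn.var (2 * i)).sub (DioFn.var (2 * i + 1)))) k).and (Dio.eq ?_ zero_fn))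
    refine fn_aeval P (A := Sum.elim (fun (i : Fin k) (v : ℕ → ℚ) => v (N + i))
      (fun (j : Fin n) (v : ℕ → ℚ) => v (2 * k + j))) ?_
    rintro (i | j)
    · exact DioFn.var _
    · exact DioFn.var _
  have hT := K2.Dio.exN (m := N) hT1
  obtain ⟨r, F0, hF0⟩ := pack (k := 0) (m := k + N * c) hT
  let φ : Fin 0 ⊕ Fin (k + N * c) ⊕ Fin r → Fin k ⊕ Fin (N * c) ⊕ Fin r :=
    Sum.elim (fun i => i.elim0) (Sum.elim (Fin.addCases (fun i => Sum.inl i)
      (fun j => Sum.inr (Sum.inl j))) (fun j => Sum.inr (Sum.inr j)))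
  refine ⟨N * c, r, rename φ F0, fun G hG R hR x => ?_⟩
  have key : ∀ (u : Fin (N * c) → ℚ) (y : Fin r → ℚ),
      aeval (Sum.elim x (Sum.elim u y)) (rename φ F0) =
        aeval (Sum.elim (fun i : Fin 0 => ((i.elim0 : ℤ) : ℚ)) (Sum.elim (Fin.append x u) y)) F0 := by
    intro u y
    rw [aeval_rename]
    congr 2
    funext s
    rcases s with s | s | s
    · exact s.elim0
    · refine Fin.addCases (fun i => ?_) (fun j => ?_) s
      · simp [φ]
      · simp [φ]
    · simp [φ]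
  have hE1 : ∀ (u : Fin (N * c) → ℚ) (i : ℕ) (hi : i < k),
      envT (fun i : Fin 0 => i.elim0) (Fin.append x u) i = x ⟨i, hi⟩ := by
    intro u i hi
    have h1 : ¬ (i < 0) := by omega
    have h2 : i - 0 < k + N * c := by omega
    have h3 : (⟨i - 0, h2⟩ : Fin (k + N * c)) = Fin.castAdd (N * c) ⟨i, hi⟩ := rfl
    simp only [envT, h1, dif_neg, not_false_eq_true, h2, dif_pos, h3, Fin.append_left]
  have hE2 : ∀ (u : Fin (N * c) → ℚ) (i : ℕ) (hi : i < N * c),
      envT (fun i : Fin 0 => i.elim0) (Fin.append x u) (k + i) = u ⟨i, hi⟩ := by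
    intro u i hi
    have h1 : ¬ (k + i < 0) := by omega
    have h2 : k + i - 0 < k + N * c := by omega
    have h3 : (⟨k + i - 0, h2⟩ : Fin (k + N * c)) = Fin.natAdd k ⟨i, hi⟩ := rfl
    simp only [envT, h1, dif_neg, not_false_eq_true, h2, dif_pos, h3, Fin.append_right]
  have hA1 : ∀ (z : Fin N → ℚ) (e : ℕ → ℚ) (i : ℕ) (hi : i < N), K2.appq z e i = z ⟨i, hi⟩ := by
    intro z e i hi
    simp [K2.appq, hi]
  have hA2 : ∀ (z : Fin N → ℚ) (e : ℕ → ℚ) (i : ℕ), K2.appq z e (N + i) = e i := by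
    intro z e i
    simp [K2.appq]
  have hlt : ∀ j < N, ∀ i < c, j * c + i < N * c := by
    intro j hj i hi
    calc j * c + i < j * c + c := by omega
      _ = (j + 1) * c := by ring
      _ ≤ N * c := Nat.mul_le_mul_right _ (by omega)
  have hrd : ∀ (z : Fin N → ℚ) (e : ℕ → ℚ) (j : ℕ) (hj : j < N),
      (fun i => K2.appq z e (rd N k c j i)) = cns (z ⟨j, hj⟩) (fun i => e (k + (j * c + i))) := by
    intro z e j hj
    funext i
    rcases i with _ | i
    · simp [rd, cns_zero, hA1 z e j hj]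
    · have : rd N k c j (i + 1) = N + (k + (j * c + i)) := by simp [rd]
      rw [this, hA2, cns_succ]
  constructor
  · rintro ⟨a, ha, hxa⟩
    obtain ⟨w, hw⟩ := (hP a).1 ha
    -- the natural numbers
    let nt : ℕ → ℕ := fun j => if h : j < 2 * k then
      (if j % 2 = 0 then (a ⟨j / 2, by omega⟩).toNat else (-(a ⟨j / 2, by omega⟩)).toNat)
      else if h' : j - 2 * k < n then w ⟨j - 2 * k, h'⟩ else 0
    choose U hU1 hU2 using fun j => comp G hG (nt j)
    let u : Fin (N * c) → ℚ := fun s => U (s / c) (s % c)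
    have hc : ∀ s : Fin (N * c), 0 < c := by
      intro s
      rcases Nat.eq_zero_or_pos c with h0 | h0
      · exact absurd s.2 (by simp [h0])
      · exact h0
    have hTu : (∃ z : Fin N → ℚ, T1 (K2.appq z (envT (fun i : Fin 0 => i.elim0) (Fin.append x u)))) := by
      refine ⟨fun j => (nt j : ℚ), ?_, ?_, ?_⟩
      · intro j hj
        rw [hrd _ _ j hj]
        refine hU2 j _ (fun i hi => ?_)
        have h1 := hE2 u (j * c + i) (hlt j hj i hi)
        rw [h1]
        have hc0 : 0 < c := by omega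
        have e1 : (j * c + i) / c = j := by
          rw [mul_comm, Nat.mul_add_div hc0, Nat.div_eq_of_lt hi, add_zero]
        have e2 : (j * c + i) % c = i := by
          rw [mul_comm, Nat.mul_add_mod, Nat.mod_eq_of_lt hi]
        simp only [u, e1, e2]
      · intro i hi
        rw [hA2, hE1 u i hi, hA1 _ _ (2 * i) (by omega), hA1 _ _ (2 * i + 1) (by omega), hxa]
        have h1 : 2 * i < 2 * k := by omega
        have h2 : 2 * i + 1 < 2 * k := by omega
        have h3 : (2 * i) % 2 = 0 := by omega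
        have h4 : (2 * i + 1) % 2 ≠ 0 := by omega
        have h5 : (⟨2 * i / 2, by omega⟩ : Fin k) = ⟨i, hi⟩ := Fin.ext (by simp)
        have h6 : (⟨(2 * i + 1) / 2, by omega⟩ : Fin k) = ⟨i, hi⟩ := Fin.ext (by simp; omega)
        simp only [nt, h1, h2, h3, h4, dif_pos, if_true, if_false, h5, h6]
        have h7 : a ⟨i, hi⟩ = ((a ⟨i, hi⟩).toNat : ℤ) - ((-(a ⟨i, hi⟩)).toNat : ℤ) := by omega
        have h8 : ((a ⟨i, hi⟩ : ℤ) : ℚ) =
            ((((a ⟨i, hi⟩).toNat : ℤ) - ((-(a ⟨i, hi⟩)).toNat : ℤ) : ℤ) : ℚ) := by rw [← h7]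
        rw [h8]
        push_cast
        rfl
      · have e1 : (fun s : Fin k ⊕ Fin n => Sum.elim (fun (i : Fin k) (v : ℕ → ℚ) => v (N + i))
            (fun (j : Fin n) (v : ℕ → ℚ) => v (2 * k + j)) s
            (K2.appq (fun j : Fin N => (nt j : ℚ)) (envT (fun i : Fin 0 => i.elim0) (Fin.append x u)))) =
            fun s => ((Sum.elim a (fun j => (w j : ℤ)) s : ℤ) : ℚ) := by
          funext s
          rcases s with i | j
          · simp only [Sum.elim_inl]
            rw [hA2, hE1 u i i.2, hxa]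
          · simp only [Sum.elim_inr]
            have h1 : 2 * k + (j : ℕ) < N := by omega
            rw [hA1 _ _ _ h1]
            have h2 : ¬ (2 * k + (j : ℕ) < 2 * k) := by omega
            have h3 : 2 * k + (j : ℕ) - 2 * k = j := by omega
            have h4 : (j : ℕ) < n := j.2
            simp only [nt, h2, dif_neg, not_false_eq_true, h3, h4, dif_pos]
            push_cast
            rfl
        rw [e1]
        have h5 : aeval (fun s => ((Sum.elim a (fun j => (w j : ℤ)) s : ℤ) : ℚ)) P =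
            ((eval (Sum.elim a (fun j => (w j : ℤ))) P : ℤ) : ℚ) := by
          rw [MvPolynomial.aeval_def, MvPolynomial.eval₂_eq_eval_map]
          have := MvPolynomial.map_eval (algebraMap ℤ ℚ) (Sum.elim a (fun j => (w j : ℤ))) P
          simpa [Function.comp_def] using this.symm
        rw [h5, hw]
        simp
    obtain ⟨y, hy⟩ := (hF0 (fun i : Fin 0 => i.elim0) (Fin.append x u)).1 hTu
    refine ⟨u, fun j => (y j : ℚ), fun s => ?_, fun j => hR _, ?_⟩
    · exact hU1 _ _ (Nat.mod_lt _ (hc s))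
    · rw [key]
      exact hy
  · rintro ⟨u, y, hu, -, hy⟩
    rw [key] at hy
    obtain ⟨z, h1, h2, h3⟩ := (hF0 (fun i : Fin 0 => i.elim0) (Fin.append x u)).2 ⟨y, hy⟩
    have hz : ∀ j (hj : j < N), ∃ t : ℕ, z ⟨j, hj⟩ = t := by
      intro j hj
      have h4 := h1 j hj
      rw [hrd _ _ j hj] at h4
      refine sound G hG _ _ (fun i hi => ?_) h4
      rw [hE2 u _ (hlt j hj i hi)]
      exact hu _
    choose! tt htt using hz
    have hx : ∀ i : Fin k, x i = (((tt (2 * i) : ℤ) - (tt (2 * i + 1) : ℤ) : ℤ) : ℚ) := by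
      intro i
      have h4 := h2 i i.2
      have hi := i.2
      rw [hA2, hE1 u i i.2, hA1 _ _ (2 * i) (by omega), hA1 _ _ (2 * i + 1) (by omega),
        htt _ (by omega), htt _ (by omega)] at h4
      rw [h4]
      push_cast
      rfl
    refine ⟨fun i => (tt (2 * i) : ℤ) - (tt (2 * i + 1) : ℤ), ?_, hx⟩
    rw [hP]
    refine ⟨fun j => tt (2 * k + j), ?_⟩
    have e1 : (fun s : Fin k ⊕ Fin n => Sum.elim (fun (i : Fin k) (v : ℕ → ℚ) => v (N + i))
        (fun (j : Fin n) (v : ℕ → ℚ) => v (2 * k + j)) s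
        (K2.appq z (envT (fun i : Fin 0 => i.elim0) (Fin.append x u)))) =
        fun s => ((Sum.elim (fun i : Fin k => (tt (2 * i) : ℤ) - (tt (2 * i + 1) : ℤ))
          (fun j : Fin n => (tt (2 * k + j) : ℤ)) s : ℤ) : ℚ) := by
      funext s
      rcases s with i | j
      · simp only [Sum.elim_inl]
        rw [hA2, hE1 u i i.2, hx]
      · simp only [Sum.elim_inr]
        have h1 : 2 * k + (j : ℕ) < N := by omega
        rw [hA1 _ _ _ h1, htt _ h1]
        push_cast
        rfl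
    rw [e1] at h3
    have h5 : aeval (fun s => ((Sum.elim (fun i : Fin k => (tt (2 * i) : ℤ) - (tt (2 * i + 1) : ℤ))
          (fun j : Fin n => (tt (2 * k + j) : ℤ)) s : ℤ) : ℚ)) P =
        ((eval (Sum.elim (fun i : Fin k => (tt (2 * i) : ℤ) - (tt (2 * i + 1) : ℤ))
          (fun j : Fin n => (tt (2 * k + j) : ℤ))) P : ℤ) : ℚ) := by
      rw [MvPolynomial.aeval_def, MvPolynomial.eval₂_eq_eval_map]
      have := MvPolynomial.map_eval (algebraMap ℤ ℚ)
        (Sum.elim (fun i : Fin k => (tt (2 * i) : ℤ) - (tt (2 * i + 1) : ℤ))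
          (fun j : Fin n => (tt (2 * k + j) : ℤ))) P
      simpa [Function.comp_def] using this.symm
    rw [h5] at h3
    exact_mod_cast h3

end Vale.Agent.P027.H192
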