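import Vale.Agent.P027.R3.H192.Cert
import Vale.Agent.P027.R2.H124.MainT2

/-! Recursively enumerable sets over the rational numbers with hypergeometric values. -/

namespace Vale.Agent.P027.H192

open Vale.Agent.P027 Vale.Agent.P027.T2 MvPolynomial

/-- the set `A` of rational numbers is Diophantine over the rational numbers -/
def DioQ (A : Set ℚ) : Prop := ∃ (l : ℕ) (g : MvPolynomial (Fin 1 ⊕ Fin l) ℤ), ∀ x : ℚ,
  (x ∈ A ↔ ∃ z : Fin l → ℚ, aeval (Sum.elim (fun _ => x) z) g = 0)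

/-- the set `S` of tuples of integers is Diophantine over the rational numbers -/
def DioZ {k : ℕ} (S : Set (Fin k → ℤ)) : Prop := ∃ (r : ℕ) (F : MvPolynomial (Fin k ⊕ Fin r) ℤ),
  ∀ x : Fin k → ℚ, (∃ a ∈ S, ∀ i, x i = (a i : ℚ)) ↔
    ∃ y : Fin r → ℚ, aeval (Sum.elim x y) F = 0

theorem cond {k m r : ℕ} {F : MvPolynomial (Fin k ⊕ Fin m ⊕ Fin r) ℤ} {S : Set (Fin k → ℤ)}
    {G : Set ℚ} (hF : Defines F S G Set.univ) (hG : DioQ G) : DioZ S := by
  obtain ⟨l, g, hg⟩ := hG
  -- unknowns `u i`, `y j`, `z i j`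
  let V : Type := Fin m ⊕ Fin r ⊕ (Fin m × Fin l)
  let eq : Fin (Fintype.card V) ≃ V := (Fintype.equivFin V).symm
  let F₁ : MvPolynomial (Fin k ⊕ V) ℤ :=
    (rename (Sum.elim Sum.inl (fun i => Sum.inr (Sum.elim Sum.inl (fun j => Sum.inr (Sum.inl j)) i)))
      F) ^ 2 + ∑ i : Fin m, (rename (Sum.elim (fun _ => Sum.inr (Sum.inl i))
        (fun j => Sum.inr (Sum.inr (Sum.inr (i, j))))) g) ^ 2
  refine ⟨Fintype.card V, rename (Sum.map id eq.symm) F₁, fun x => ?_⟩
  have ev : ∀ w : V → ℚ, aeval (Sum.elim x w) F₁ =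
      (aeval (Sum.elim x (Sum.elim (fun i => w (Sum.inl i))
        (fun j => w (Sum.inr (Sum.inl j))))) F) ^ 2 + ∑ i : Fin m,
        (aeval (Sum.elim (fun _ => w (Sum.inl i)) (fun j => w (Sum.inr (Sum.inr (i, j))))) g) ^ 2 := by
    intro w
    simp only [F₁, map_add, map_pow, map_sum, aeval_rename]
    congr 1
    · congr 2
      congr 1
      funext i
      rcases i with i | i | i <;> rfl
    · refine Finset.sum_congr rfl (fun i _ => ?_)
      congr 2
      congr 1
      funext j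
      rcases j with j | j <;> rfl
  have hex : (∃ y : Fin (Fintype.card V) → ℚ,
      aeval (Sum.elim x y) (rename (Sum.map id eq.symm) F₁) = 0) ↔
      ∃ w : V → ℚ, aeval (Sum.elim x w) F₁ = 0 := by
    have key : ∀ y : Fin (Fintype.card V) → ℚ,
        Sum.elim x y ∘ Sum.map id eq.symm = Sum.elim x (y ∘ eq.symm) := by
      intro y; funext i; rcases i with i | i <;> rfl
    simp only [aeval_rename, key]
    constructor
    · rintro ⟨y, hy⟩; exact ⟨_, hy⟩
    · rintro ⟨w, hw⟩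
      refine ⟨w ∘ eq, ?_⟩
      have : (w ∘ eq) ∘ eq.symm = w := by funext i; simp
      rw [this]
      exact hw
  rw [hex, hF x]
  constructor
  · rintro ⟨u, y, hu, -, h⟩
    choose z hz using fun i => (hg (u i)).1 (hu i)
    refine ⟨Sum.elim u (Sum.elim y (fun ij => z ij.1 ij.2)), ?_⟩
    rw [ev]
    simp only [Sum.elim_inl, Sum.elim_inr]
    rw [h, Finset.sum_eq_zero (fun i _ => by rw [hz i]; ring)]
    ring
  · rintro ⟨w, hw⟩
    rw [ev] at hw
    have h1 : 0 ≤ ∑ i : Fin m, (aeval (Sum.elim (fun _ => w (Sum.inl i))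
        (fun j => w (Sum.inr (Sum.inr (i, j))))) g) ^ 2 := Finset.sum_nonneg (fun i _ => sq_nonneg _)
    have h2 := sq_nonneg (aeval (Sum.elim x (Sum.elim (fun i => w (Sum.inl i))
        (fun j => w (Sum.inr (Sum.inl j))))) F)
    have h3 := pow_eq_zero_iff (n := 2) (by norm_num) |>.1 (le_antisymm (by linarith) h2)
    have h4 : ∑ i : Fin m, (aeval (Sum.elim (fun _ => w (Sum.inl i))
        (fun j => w (Sum.inr (Sum.inr (i, j))))) g) ^ 2 = 0 := le_antisymm (by linarith) h1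
    rw [Finset.sum_eq_zero_iff_of_nonneg (fun i _ => sq_nonneg _)] at h4
    refine ⟨_, _, fun i => ?_, fun _ => Set.mem_univ _, h3⟩
    have h5 := pow_eq_zero_iff (n := 2) (by norm_num) |>.1 (h4 i (Finset.mem_univ i))
    exact (hg _).2 ⟨_, h5⟩

theorem cert_int : HasCert {Set.range (fun z : ℤ => (z : ℚ))} := by
  refine ⟨4, fun v => v 0 = v 1 * v 1 + v 2 * v 2 + v 3 * v 3 + v 4 * v 4, ?_, ?_, ?_⟩
  · exact Dio.eq (DioFn.var 0) (((((DioFn.var 1).mul (DioFn.var 1)).add
      ((DioFn.var 2).mul (DioFn.var 2))).add ((DioFn.var 3).mul (DioFn.var 3))).add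
      ((DioFn.var 4).mul (DioFn.var 4)))
  · intro G hG x u hu hC
    rw [Set.mem_singleton_iff] at hG
    subst hG
    obtain ⟨a, ha⟩ := hu 0 (by norm_num)
    obtain ⟨b, hb⟩ := hu 1 (by norm_num)
    obtain ⟨c, hc⟩ := hu 2 (by norm_num)
    obtain ⟨d, hd⟩ := hu 3 (by norm_num)
    have h : x = u 0 * u 0 + u 1 * u 1 + u 2 * u 2 + u 3 * u 3 := hC
    simp only at ha hb hc hd
    refine ⟨(a * a + b * b + c * c + d * d).toNat, ?_⟩
    have h1 : 0 ≤ a * a + b * b + c * c + d * d := by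
      have ha' := mul_self_nonneg a
      have hb' := mul_self_nonneg b
      have hc' := mul_self_nonneg c
      have hd' := mul_self_nonneg d
      omega
    have h2 : (((a * a + b * b + c * c + d * d).toNat : ℤ) : ℚ) =
        ((a * a + b * b + c * c + d * d : ℤ) : ℚ) := by rw [Int.toNat_of_nonneg h1]
    rw [h, ← ha, ← hb, ← hc, ← hd]
    push_cast at h2
    rw [h2]
  · intro G hG n
    rw [Set.mem_singleton_iff] at hG
    subst hG
    obtain ⟨a, b, c, d, h⟩ := Nat.sum_four_squares n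
    refine ⟨fun i => if i = 0 then (a : ℚ) else if i = 1 then (b : ℚ) else if i = 2 then (c : ℚ)
      else (d : ℚ), fun i _ => ?_, fun u' hu' => ?_⟩
    · by_cases h0 : i = 0
      · exact ⟨a, by simp [h0]⟩
      by_cases h1 : i = 1
      · exact ⟨b, by simp [h1]⟩
      by_cases h2 : i = 2
      · exact ⟨c, by simp [h2]⟩
      · exact ⟨d, by simp [h0, h1, h2]⟩
    · have e0 : u' 0 = a := hu' 0 (by norm_num)
      have e1 : u' 1 = b := hu' 1 (by norm_num)
      have e2 : u' 2 = c := hu' 2 (by norm_num)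
      have e3 : u' 3 = d := hu' 3 (by norm_num)
      change (n : ℚ) = u' 0 * u' 0 + u' 1 * u' 1 + u' 2 * u' 2 + u' 3 * u' 3
      rw [e0, e1, e2, e3, ← h]
      push_cast
      ring

theorem hyper_central : Hyper (fun n => (n.centralBinom : ℚ)) := by
  refine ⟨Polynomial.C 4 * Polynomial.X + Polynomial.C 2, Polynomial.C 1 * Polynomial.X + Polynomial.C 1, ?_, ?_, ?_, ?_, ?_, ?_, ?_⟩
  · rw [Polynomial.natDegree_linear (by norm_num), Polynomial.natDegree_linear (by norm_num)]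
  · rw [Polynomial.leadingCoeff_linear (by norm_num)]
    norm_num
  · rw [Polynomial.leadingCoeff_linear (by norm_num), Polynomial.leadingCoeff_linear (by norm_num)]
    norm_num
  · intro a b h
    have h0 := congrArg (Polynomial.eval 0) h
    have h1 := congrArg (Polynomial.eval 1) h
    simp at h0 h1
    omega
  · simp
  · intro n
    simp only [Polynomial.eval_add, Polynomial.eval_mul, Polynomial.eval_C, Polynomial.eval_X]
    constructor <;> positivity
  · intro n
    have h := Nat.succ_mul_centralBinom_succ n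
    simp only [Polynomial.eval_add, Polynomial.eval_mul, Polynomial.eval_C, Polynomial.eval_X]
    have h' : (((n + 1) * (n + 1).centralBinom : ℕ) : ℚ) = ((2 * (2 * n + 1) * n.centralBinom : ℕ) : ℚ) := by
      rw [h]
    push_cast at h' ⊢
    linarith

theorem primrec_ofNat : Primrec (fun n : ℕ => (n : ℤ)) := by
  have h2 : Primrec (fun n : ℕ => 2 * n) := Primrec.nat_mul.comp (Primrec.const 2) Primrec.id
  exact Primrec.encode_iff.1 (h2.of_eq fun n => rfl)

theorem re_values (f : ℕ → ℕ) (hf : Primrec f) :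
    REPred (fun a : Fin 1 → ℤ => a ∈ {a : Fin 1 → ℤ | ∃ n : ℕ, a 0 = (f n : ℤ)}) := by
  have h1 : PrimrecPred (fun p : (Fin 1 → ℤ) × ℕ => p.1 0 = (f p.2 : ℤ)) :=
    Primrec.eq.comp (Primrec.fin_app.comp Primrec.fst (Primrec.const 0))
      (primrec_ofNat.comp (hf.comp Primrec.snd))
  have h2 : ComputablePred (fun p : (Fin 1 → ℤ) × ℕ => p.1 0 = (f p.2 : ℤ)) := h1.computablePred
  have h3 : Partrec (fun a : Fin 1 → ℤ => Nat.rfind fun n => Part.some (decide (a 0 = (f n : ℤ)))) :=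
    Partrec.rfind h2.decide.partrec
  refine h3.dom_re.of_eq (fun a => Nat.rfind_dom.trans ?_)
  constructor
  · rintro ⟨n, hn, -⟩
    have h4 : true = decide (a 0 = (f n : ℤ)) := Part.mem_some_iff.1 hn
    exact ⟨n, of_decide_eq_true h4.symm⟩
  · rintro ⟨n, hn⟩
    exact ⟨n, Part.mem_some_iff.2 (decide_eq_true hn).symm, fun _ => trivial⟩

theorem primrec_fact : Primrec Nat.factorial := by
  have h : Primrec (fun n : ℕ => (Nat.rec 1 (fun n y => (n + 1) * y) n : ℕ)) := by
    refine Primrec.nat_rec₁ 1 ?_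
    exact (Primrec.nat_mul.comp (Primrec.succ.comp Primrec.fst) Primrec.snd)
  refine h.of_eq (fun n => ?_)
  induction n with
  | zero => rfl
  | succ n ih => rw [Nat.factorial_succ, ← ih]

theorem primrec_central : Primrec Nat.centralBinom := by
  have h2 : Primrec (fun n : ℕ => 2 * n) := Primrec.nat_mul.comp (Primrec.const 2) Primrec.id
  have h : Primrec (fun n : ℕ => (2 * n).factorial / (n.factorial * n.factorial)) :=
    Primrec.nat_div.comp (primrec_fact.comp h2) (Primrec.nat_mul.comp primrec_fact primrec_fact)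
  refine h.of_eq (fun n => ?_)
  rw [Nat.centralBinom_eq_two_mul_choose, Nat.choose_eq_factorial_div_factorial (by omega)]
  congr 3
  omega

/-- a set of values is Diophantine if the set of integers is -/
theorem values_of_int (hZ : DioQ (Set.range (fun z : ℤ => (z : ℚ)))) (f : ℕ → ℕ) (hf : Primrec f) :
    DioQ (Set.range (fun n => (f n : ℚ))) := by
  obtain ⟨m, r, F, hF⟩ := form_of_cert cert_int (re_values f hf)
  obtain ⟨r', F', h'⟩ := cond (hF _ rfl Set.univ (fun _ => Set.mem_univ _)) hZ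
  refine ⟨r', F', fun x => ?_⟩
  rw [← h' (fun _ => x)]
  constructor
  · rintro ⟨n, hn⟩
    exact ⟨fun _ => (f n : ℤ), ⟨n, rfl⟩, fun _ => by rw [← hn]; simp⟩
  · rintro ⟨a, ⟨n, hn⟩, ha⟩
    refine ⟨n, ?_⟩
    have := ha 0
    rw [hn] at this
    rw [this]
    simp

theorem int_of_values {𝒢 : Set (Set ℚ)} (h𝒢 : HasCert 𝒢) {G : Set ℚ} (hG : G ∈ 𝒢) (hD : DioQ G) :
    DioQ (Set.range (fun z : ℤ => (z : ℚ))) := by
  have hS : REPred (fun a : Fin 1 → ℤ => a ∈ (Set.univ : Set (Fin 1 → ℤ))) := by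
    exact ComputablePred.to_re (ComputablePred.computable_iff.2
      ⟨fun _ => true, Computable.const true, by funext a; simp⟩)
  obtain ⟨m, r, F, hF⟩ := form_of_cert h𝒢 hS
  obtain ⟨r', F', h'⟩ := cond (hF _ hG Set.univ (fun _ => Set.mem_univ _)) hD
  refine ⟨r', F', fun x => ?_⟩
  rw [← h' (fun _ => x)]
  constructor
  · rintro ⟨n, hn⟩
    exact ⟨fun _ => n, trivial, fun _ => hn.symm⟩
  · rintro ⟨a, -, ha⟩
    exact ⟨a 0, (ha 0).symm⟩

theorem has_cert {t : ℕ → ℚ} (ht : Hyper t ∨ t = fun n => (n.factorial : ℚ)) (B : ℚ) :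
    HasCert (Above t B) := by
  rcases ht with ht | rfl
  · exact cert_hyper ht B
  · exact cert_factorial B

theorem range_mem (t : ℕ → ℚ) (B : ℚ) : Set.range t ∈ Above t B :=
  ⟨fun n _ => ⟨n, rfl⟩, fun g hg _ => by obtain ⟨n, rfl⟩ := hg; exact ⟨n, rfl⟩⟩

theorem clause5 (t : ℕ → ℚ) (B : ℚ) (ht : Hyper t ∨ t = fun n => (n.factorial : ℚ)) (k : ℕ)
    (S : Set (Fin k → ℤ)) (hS : REPred (fun a => a ∈ S)) :
    (∃ (m r : ℕ) (F : MvPolynomial (Fin k ⊕ Fin m ⊕ Fin r) ℤ), ∀ G ∈ Above t B, ∀ R : Set ℚ,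
      (∀ z : ℤ, (z : ℚ) ∈ R) → Defines F S G R) ∧
    ∀ G ∈ Above t B, DioQ G → DioZ S := by
  obtain ⟨m, r, F, hF⟩ := form_of_cert (has_cert ht B) hS
  exact ⟨⟨m, r, F, hF⟩, fun G hG hD => cond (hF G hG Set.univ (fun _ => Set.mem_univ _)) hD⟩

theorem clause6 : (DioQ (Set.range (fun n : ℕ => (n.factorial : ℚ))) ↔
      DioQ (Set.range (fun z : ℤ => (z : ℚ)))) ∧
    (DioQ (Set.range (fun n : ℕ => (n.centralBinom : ℚ))) ↔
      DioQ (Set.range (fun z : ℤ => (z : ℚ)))) :=
  ⟨⟨fun h => int_of_values (has_cert (Or.inr rfl) 0) (range_mem _ 0) h,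
      fun h => values_of_int h _ primrec_fact⟩,
    ⟨fun h => int_of_values (has_cert (Or.inl hyper_central) 0) (range_mem _ 0) h,
      fun h => values_of_int h _ primrec_central⟩⟩

end Vale.Agent.P027.H192
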